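import Vale.Agent.P181.TL.H908.SizeB0

/-! # P181, GK: (SIZ), the sizes with `a` pieces and size bound `A` (no other import) -/

namespace Vale.Agent.P181.GK.H908

open Finset
open Vale.Agent.P181.TL.H908 (sum_lt_fin)

open scoped Classical in
theorem siz0 : ∀ (a A B q m w M : ℕ), 0 < a → 1 ≤ q → 1 ≤ m → 1 ≤ M →
  2 * (M + q * (a / m) + q + 1) ≤ A → q * a * (M + q * (a / m) + q) + 4 * M * q * a ≤ w →
  A ≤ a → 3 * q * a + 3 * (w / A) + 3 ≤ B →
  ∃ (H : ℕ) (s : Fin a × Fin q → ℕ) (p : Fin H → ℕ) (l : Fin a × Fin q → Fin H),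
    (∀ j, M < s j) ∧ (∀ j h, s j < p h) ∧ (∀ h, p h ≤ A) ∧ 3 * (a * q + H) ≤ B ∧
    ∑ j, s j + ∑ h, p h = w ∧
    (∀ j j' : Fin a × Fin q, s j = s j' → (j.1 : ℕ) / m = (j'.1 : ℕ) / m ∧ j.2 = j'.2) ∧
    ∀ h, (Finset.univ.filter fun j => l j = h).card * M ≤ p h := by
  intro a A b q m w M ha0 hq hm hM hMa hw hAa hb
  have ha : 0 < A := by omega
  obtain ⟨s, hs⟩ : ∃ s : Fin a × Fin q → ℕ, ∀ j, s j = M + 1 + (q * ((j.1 : ℕ) / m) + (j.2 : ℕ)) :=
    ⟨fun j => M + 1 + (q * ((j.1 : ℕ) / m) + (j.2 : ℕ)), fun _ => rfl⟩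
  obtain ⟨Z, hZ⟩ : ∃ Z, Z = M + q * (a / m) + q := ⟨_, rfl⟩
  rw [← hZ] at hMa hw
  have hs1 : ∀ j, s j ≤ Z := fun j => by
    have h1 : (j.1 : ℕ) / m ≤ a / m := Nat.div_le_div_right j.1.2.le
    have h2 : q * ((j.1 : ℕ) / m) ≤ q * (a / m) := Nat.mul_le_mul_left _ h1
    have h3 := j.2.2
    rw [hs, hZ]
    omega
  have hsum : ∑ j, s j ≤ q * a * Z := by
    calc ∑ j, s j ≤ ∑ _j : Fin a × Fin q, Z := sum_le_sum fun j _ => hs1 j
      _ = q * a * Z := by
        rw [sum_const, card_univ, Fintype.card_prod, Fintype.card_fin, Fintype.card_fin,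
          smul_eq_mul, mul_comm q a]
  obtain ⟨P, hP⟩ : ∃ P, ∑ j, s j + P = w := ⟨w - ∑ j, s j, by omega⟩
  have hP4 : 4 * M * q * a ≤ P := by omega
  obtain ⟨u, hu⟩ : ∃ u, u = P / A := ⟨_, rfl⟩
  have hu1 : 4 * M * q ≤ u := by
    rw [hu]
    exact (Nat.le_div_iff_mul_le ha).2 (le_trans (Nat.mul_le_mul_left _ hAa) hP4)
  have hu2 : A * u ≤ P := by
    rw [hu]
    exact Nat.mul_div_le P A
  have hu3 : P < A * (u + 1) := by
    rw [hu]
    exact Nat.lt_mul_div_succ P ha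
  have hMq : 1 ≤ M * q := Nat.mul_pos hM hq
  have hu4 : 4 ≤ u := by nlinarith
  have hu5 : u ≤ w / A := by
    rw [hu]
    exact Nat.div_le_div_right (by omega)
  -- everything of size `≤ A / 2` fits
  have hfit : ∀ x, 2 * x ≤ A → x ≤ P / (u + 1) := fun x hx => by
    refine (Nat.le_div_iff_mul_le (Nat.succ_pos u)).2 ?_
    rw [Nat.succ_eq_add_one]
    have h1 : 2 * (x * (u + 1)) ≤ 2 * (A * u) := by
      calc 2 * (x * (u + 1)) = (2 * x) * (u + 1) := by ring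
        _ ≤ A * (u + 1) := Nat.mul_le_mul_right _ hx
        _ ≤ 2 * (A * u) := by nlinarith
    omega
  have hPa : P / (u + 1) < A := by
    rw [Nat.div_lt_iff_lt_mul (Nat.succ_pos u)]
    exact hu3
  obtain ⟨p, hp⟩ : ∃ p : Fin (u + 1) → ℕ, ∀ h, p h = P / (u + 1) +
      if (h : ℕ) < P % (u + 1) then 1 else 0 :=
    ⟨fun h => P / (u + 1) + if (h : ℕ) < P % (u + 1) then 1 else 0, fun _ => rfl⟩
  have hp1 : ∀ h, P / (u + 1) ≤ p h := fun h => by
    rw [hp]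
    exact Nat.le_add_right _ _
  have hp2 : ∀ h, p h ≤ A := fun h => by
    rw [hp]
    split_ifs <;> omega
  have hp3 : ∑ h, p h = P := by
    rw [sum_congr rfl fun h _ => hp h, sum_add_distrib, sum_const, card_univ, Fintype.card_fin,
      smul_eq_mul, sum_lt_fin (u + 1) (P % (u + 1)) (Nat.mod_lt _ (Nat.succ_pos u)).le]
    exact Nat.div_add_mod P (u + 1)
  -- the heads
  obtain ⟨g, hg⟩ : ∃ g, g = A / (2 * M) := ⟨_, rfl⟩
  have h2M : 0 < 2 * M := by omega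
  have hg1 : 1 ≤ g := by
    rw [hg]
    refine (Nat.le_div_iff_mul_le h2M).2 ?_
    omega
  have hg2 : 2 * M * g ≤ A := by
    rw [hg]
    exact Nat.mul_div_le A (2 * M)
  have hg3 : A < 2 * M * (g + 1) := by
    rw [hg]
    exact Nat.lt_mul_div_succ A h2M
  have hg4 : A < 4 * M * g := by nlinarith
  have hidx : ∀ j : Fin a × Fin q, q * (j.1 : ℕ) + (j.2 : ℕ) < q * a := fun j => by
    have h1 := j.1.2
    have h2 := j.2.2
    calc q * (j.1 : ℕ) + (j.2 : ℕ) < q * (j.1 : ℕ) + q := by omega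
      _ = q * ((j.1 : ℕ) + 1) := by ring
      _ ≤ q * a := Nat.mul_le_mul_left _ h1
  have hqa : q * a ≤ (u + 1) * g := by
    have h4M : 0 < 4 * M := by omega
    refine Nat.le_of_mul_le_mul_left ?_ h4M
    calc 4 * M * (q * a) = 4 * M * q * a := by ring
      _ ≤ P := hP4
      _ ≤ A * (u + 1) := hu3.le
      _ ≤ 4 * M * g * (u + 1) := Nat.mul_le_mul_right _ hg4.le
      _ = 4 * M * ((u + 1) * g) := by ring
  have hl : ∀ j : Fin a × Fin q, (q * (j.1 : ℕ) + (j.2 : ℕ)) / g < u + 1 := fun j => by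
    rw [Nat.div_lt_iff_lt_mul hg1]
    exact lt_of_lt_of_le (hidx j) hqa
  refine ⟨u + 1, s, p, fun j => ⟨(q * (j.1 : ℕ) + (j.2 : ℕ)) / g, hl j⟩, ?_, ?_, hp2, ?_, ?_, ?_, ?_⟩
  · intro j
    rw [hs]
    omega
  · intro j h
    have h1 := hs1 j
    have h2 := hfit (Z + 1) (by omega)
    have h3 := hp1 h
    omega
  · have h1 : a * q = q * a := mul_comm a q
    have h2 : 3 * q * a = 3 * (q * a) := by ring
    omega
  · rw [hp3]
    exact hP
  · intro j j' h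
    rw [hs, hs] at h
    have h1 : (q * ((j.1 : ℕ) / m) + (j.2 : ℕ)) = (q * ((j'.1 : ℕ) / m) + (j'.2 : ℕ)) := by omega
    have h2 : (j.1 : ℕ) / m = (j'.1 : ℕ) / m := by
      have h3 : (q * ((j.1 : ℕ) / m) + (j.2 : ℕ)) / q = (q * ((j'.1 : ℕ) / m) + (j'.2 : ℕ)) / q := by
        rw [h1]
      rwa [Nat.mul_add_div hq, Nat.mul_add_div hq, Nat.div_eq_of_lt j.2.2,
        Nat.div_eq_of_lt j'.2.2, add_zero, add_zero] at h3
    refine ⟨h2, Fin.ext ?_⟩
    rw [h2] at h1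
    omega
  · intro h
    have h1 : (Finset.univ.filter fun j : Fin a × Fin q =>
        (⟨(q * (j.1 : ℕ) + (j.2 : ℕ)) / g, hl j⟩ : Fin (u + 1)) = h).card ≤ g := by
      have h2 : (Finset.univ.filter fun j : Fin a × Fin q =>
          (⟨(q * (j.1 : ℕ) + (j.2 : ℕ)) / g, hl j⟩ : Fin (u + 1)) = h).card ≤
          (Finset.Ico (g * (h : ℕ)) (g * (h : ℕ) + g)).card := by
        refine Finset.card_le_card_of_injOn (fun j => q * (j.1 : ℕ) + (j.2 : ℕ)) ?_ ?_
        · intro j hj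
          have h3 := (Finset.mem_filter.1 (Finset.mem_coe.1 hj)).2
          have h4 : (q * (j.1 : ℕ) + (j.2 : ℕ)) / g = (h : ℕ) := congrArg Fin.val h3
          have h5 := Nat.div_add_mod (q * (j.1 : ℕ) + (j.2 : ℕ)) g
          have h6 := Nat.mod_lt (q * (j.1 : ℕ) + (j.2 : ℕ)) hg1
          rw [h4] at h5
          rw [Finset.coe_Ico, Set.mem_Ico]
          dsimp only
          omega
        · intro j _ j' _ h3
          dsimp only at h3
          have h4 : (j.1 : ℕ) = j'.1 := by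
            have h5 : (q * (j.1 : ℕ) + (j.2 : ℕ)) / q = (q * (j'.1 : ℕ) + (j'.2 : ℕ)) / q := by
              rw [h3]
            rwa [Nat.mul_add_div hq, Nat.mul_add_div hq, Nat.div_eq_of_lt j.2.2,
              Nat.div_eq_of_lt j'.2.2, add_zero, add_zero] at h5
          rw [h4] at h3
          exact Prod.ext (Fin.ext h4) (Fin.ext (by omega))
      rwa [Nat.card_Ico, Nat.add_sub_cancel_left] at h2
    have h3 : g * M ≤ P / (u + 1) := hfit (g * M) (by nlinarith)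
    calc _ ≤ g * M := Nat.mul_le_mul_right _ h1
      _ ≤ P / (u + 1) := h3
      _ ≤ p h := hp1 h

end Vale.Agent.P181.GK.H908
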