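import Vale.Agent.P181.GK.Defs
import Vale.Agent.P181.GK.H908.Siz0

/-! # P181, GK: (SIZ) -/

namespace Vale.Agent.P181.GK.H908

theorem siz : Vale.Agent.P181.GK.SizeG := siz0

end Vale.Agent.P181.GK.H908
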